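import Crest.Agent.X212.Rb56.Main
import Crest.Agent.X212.Wl34.Wl
import Crest.Agent.X212.Eps37.Main
import Crest.Agent.X212.Tm38.Abw

/-!
# Row 212, RB + RA (helper56): without hypotheses
-/

set_option autoImplicit false

namespace Crest.Agent.X212.Rb56
open G75

variable {κ lam : Type} [Fintype κ] [Fintype lam] [DecidableEq lam] (Lm : LM κ lam)

theorem raS : Fk18.RaStmt Lm := ra Lm fun _ _ _ _ _ _ J _ _ => Eps37.eps J

theorem rbS : Fk18.RbStmt Lm := rb Lm (fun _ _ _ _ _ _ J _ _ => Eps37.eps J)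
  (fun _ _ _ _ _ _ J _ a => have := J.conn_xs a; Wl34.wl _) Tm38.abw

end Crest.Agent.X212.Rb56
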