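import Crest.Agent.X212.Nd18.Fk
import Crest.Agent.X212.Kl48.Job
import Crest.Agent.X212.Jb7.Ops
import Crest.Agent.X212.Dead36.Main

/-!
# Row 212, RB + RA (helper56): regions without spinor on the faces where `a` is broken
-/

set_option autoImplicit false
set_option linter.unusedSectionVars false
noncomputable section
open scoped Manifold ContDiff Topology
open MeasureTheory Set Function Filter Classical

namespace Crest.Agent.X212.Rb56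
open An M G75 Jb7 Ins26 Nd18 Rf65 Pte3 Fk18 Kl48
open An.Job (Sol SolOn)
open Rdc90 (Bs)

section nk
variable {κ lam : Type} [Fintype κ] [Fintype lam] {Y : Mf 3} [CompactSpace Y.M] {r : ℕ}
  {D : Nd18.YD Y.I Y.M κ lam}

theorem cls_one {c : Cfg (Y.M × ℝ) (Option κ) lam r} {β : YC Y.M κ lam}
    {u : Y.M × ℝ → CL c.m.V β.m.V} {ζ : Circle} {S : Set ℝ} {k : ℕ} {η : ℝ}
    (h : D.Cls c β u ζ S k η) (h0 : ∀ x : Y.M × ℝ, x.2 ∈ S → c.Φ x = 0) :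
    D.Cls c.con β u 1 S k η :=
  ⟨h.op, h.m, h.A, fun w hw x hx => by
    rw [Prm93.Dw_congr (v := YD.dP c β u ζ) w (((isOpen_univ.prod h.op).eventually_mem hx).mono
      fun z hz => by simp [YD.dP, h0 z hz.2, cs])]
    exact h.P w hw x hx⟩

end nk

/-- one object outside, one in each leaf -/
theorem exists_ob {α A B : Type} {I : A → Prop} {o : A} {L : Finset B} {f : B → A}
    (hf : Injective f) (hI : ∀ ρ, I ρ ↔ ρ = o ∨ ∃ l ∈ L, ρ = f l) (hn : ∀ l ∈ L, o ≠ f l)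
    (y : α) (z : B → α) : ∃ g : A → α,
    (∀ Q : A → α → Prop, Q o y → (∀ l ∈ L, Q (f l) (z l)) → ∀ ρ, I ρ → Q ρ (g ρ)) ∧
    ∀ F : α → A → ℝ, ∑ᶠ ρ ∈ {ρ | I ρ}, F (g ρ) ρ = F y o + ∑ l ∈ L, F (z l) (f l) := by
  let g : A → α := fun ρ => if ρ = o then y else extend f z (fun _ => y) ρ
  have e0 : g o = y := if_pos rfl
  have e1 : ∀ l ∈ L, g (f l) = z l := fun l k => (if_neg (hn l k).symm).trans (hf.extend_apply _ _ l)
  refine ⟨g, fun Q h0 h1 ρ k => ?_, fun F => ?_⟩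
  · obtain rfl | ⟨l, hl, rfl⟩ := (hI ρ).1 k
    exacts [e0.symm ▸ h0, (e1 l hl).symm ▸ h1 l hl]
  · rw [show {ρ | I ρ} = ↑(insert o (L.image f)) from Set.ext fun ρ => by simp [hI, eq_comm],
      finsum_mem_coe_finset, Finset.sum_insert fun k => by
        obtain ⟨l, hl, e⟩ := Finset.mem_image.1 k
        exact hn l hl e.symm, Finset.sum_image fun _ _ _ _ e => hf e, e0]
    exact congrArg _ (Finset.sum_congr rfl fun l k => by rw [e1 l k])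

section job
variable {Wi : Type} {X : Mf 4} {A κ lam : Type} [Fintype A] [Fintype κ] [Fintype lam]
  [DecidableEq lam] {M : Mark X A κ} {W : World M} {N : ML M lam} {Λ : Lns W N}
  {A' h : Type} [Fintype A'] [DecidableEq A'] [Fintype h] {r n : ℕ}
  {J : Job Wi Λ A' h r n} {c : M.Cl} {δ : ℝ} {y : J.Obc c} {π : Reg A}
  {σ : Cel A'} {q : Wi →₀ ℝ}

theorem crit_cv {S S' : Xs Wi κ lam} (e : S = S') {β} (h : S.N.Crit S.D β) :
    S'.N.Crit S'.D (cv e β) := by subst e; exact h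

/-- the connection on a piece without spinor decays -/
theorem go_of (hJ : J.OK) (hσ : σ ∈ J.𝒦) (hy : Sol σ q y) (hπ : M.sys.Piece c.1 π) (h0 : ¬y.TF π)
    (d0 : 0 < δ) (hb : ∀ i ∈ EdP c {π}, Bs (J.xs i.1).D (y.β i.1 i.2))
    (hd : ∀ i ∈ EdP c {π}, ∀ ha : Act J.m c i.1 (some i.2) (J.Θ y.s), ∃ d > 2 * δ,
      (J.K c i.1 _ _ ha).ELim d y.x (y.β i.1 i.2) (y.ζ i.1 i.2) (dr i.2)) : Go δ y {π} where
  br := hy.br hJ hσ
  O := (hy.ok hJ hσ).2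
  adm := let k := hy.sol.toAdm.con; ⟨k.ok, k.conn, k.sm, k.pos⟩
  bs := hb
  lim i hi ha := by
    obtain ⟨d, d1, u, S, h1, h2, h3, h4⟩ := hd i hi ha
    obtain ⟨_, rfl, e⟩ := hi
    have z : ∀ x : _ × ℝ, x.2 ∈ S → ((J.K c i.1 _ _ ha).pb y.x).Φ x = 0 := fun x hx =>
      Job.Obc.zero h0 ((hJ.nk _ _ _ _ ha).end_mem ha hπ e (h2 hx))
    exact ⟨d, by linarith, u, S, h1, h2, cls_one h3 z, fun k => (h4 k).imp fun C hC s hs =>
      cls_one (hC s hs) fun x hx => z x (hs hx)⟩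
  int := hy.int.integrableOn

end job

variable {κ lam : Type} [Fintype κ] [Fintype lam] [DecidableEq lam] {Lm : LM κ lam}
  {y₀ : G75.YD κ lam} {S : Scene Lm} {P : Pk y₀} {z : Z0 P S} {Z : Z1 z} {R : ℕ} {T δ : ℝ}
  {q : Z.F.Wi →₀ ℝ} {y : Z.Ob} {π : Reg S.A} {x : S.A} {b : Bool}
  {Adm : (Z.F.Wi →₀ ℝ) → Prop}

theorem mem_pe {e : S.M.Cl} : x ∈ pe e ↔ x ∈ e.1 ∧ S.M.pin x := by simp [pe]

theorem mem_LE {e : S.M.Cl} {l : S.ls} : l ∈ Fk18.LE e π ↔ l.1 ∈ e.1 ∧ l.1 ∈ S.M.sys.inn π := by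
  simp [Fk18.LE]

theorem mem_Rg : π ∈ Z.Rg b ↔ z.t.Pc b (pe Z.e) π := by simp [Fk18.Rg]

theorem ou_LE {e : S.M.Cl} {l : S.ls} (h : l ∈ Fk18.LE e π) : Fk18.ou e π l = some true :=
  if_pos ⟨(mem_LE.1 h).1, l.2, (mem_LE.1 h).2⟩

theorem ou_inn {e : S.M.Cl} (h : x ∈ S.M.sys.inn π) (k : Fk18.ou e π x = some b) : b = true := by
  unfold Fk18.ou at k
  split_ifs at k
  exacts [(Option.some.inj k).symm, (nomatch h.1.symm.trans k)]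

section ok
variable (h0 : z.OK R) (h1 : Z.OK T)
include h1

theorem ne0 : z.c Z.i ≠ 0 := fun e => h1.c (congrFun e _)

theorem mem : Z.ce ∈ Z.J.𝒦 := ⟨Z.τ, none, Z.σ, rfl, nofun, h1.c, h1.sub⟩

theorem okJ : Z.J.OK := (h1.F.J _ (ne0 h1) _ _).1

theorem loc : LocP Z.J (shS S) := (h1.F.J _ (ne0 h1) _ _).2

include h0

theorem nfz (k : x ∈ Z.σ) : x ∉ S.fz :=
  Finset.disjoint_left.1 (h0.cn.ok.cell _ _ (h0.cn.cl.mem _ _ h1.c).1).2 k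

theorem cases (k : x ∈ Z.e.1) : x = z.t.a ∨ x ∈ Z.σ ∧ (S.M.pin x ∨ x ∈ S.ls) :=
  (h1.e k).imp_right fun i => ⟨h1.sub i, (h0.cn.cl.mem _ _ h1.c).2.2 x (h1.sub i)⟩

theorem c0_iff (x : S.A) :
    x ∈ insert z.t.a (pe Z.e) ↔ x ∈ Z.e.1 ∧ (S.M.pin x ∨ x ∈ S.fz) := by
  rw [Finset.mem_insert, mem_pe]
  refine ⟨?_, fun ⟨k, i⟩ => (cases h0 h1 k).imp_right fun j =>
    ⟨k, i.resolve_right (nfz h0 h1 j.1)⟩⟩
  rintro (rfl | k)
  exacts [⟨h1.a, .inr h0.t.fz.1⟩, ⟨k.1, .inl k.2⟩]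

theorem e_sub : Z.e.1 ⊆ ↑(insert z.t.a (pe Z.e)) ∪ ↑S.ls := fun _ k =>
  (cases h0 h1 k).elim (fun i => .inl (i ▸ Finset.mem_insert_self _ _)) fun i =>
    i.2.imp_left fun j => Finset.mem_insert_of_mem (mem_pe.2 ⟨k, j⟩)

theorem cyl_m : cylW Z.e ⊆ Z.F.m.1 := fun x k => h1.F.mem (Finset.mem_union.2
  ((cases h0 h1 k.1).imp (fun i : x = z.t.a => i ▸ h0.t.fz.1) fun i => i.2.resolve_left k.2))

theorem ou_a : Fk18.ou Z.e π z.t.a = π z.t.a :=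
  if_neg fun k => (h0.cn.ok.fz _ h0.t.fz.1).2.1 k.2.1

theorem pt (hy : Sol Z.ce q y) : S.Pt Z.σ T (Z.F.Θ y.s).2 := by
  have ne : ∀ x, x ∉ S.fz → x ≠ z.t.a := fun x k e => k (e ▸ h0.t.fz.1)
  have e : ∀ x, x ∉ S.fz → (Z.F.Θ y.s).2 x = if x ∈ hard S ∅ then rho (y.s (.inl x)) else 0 :=
    fun x k => (update_of_ne (ne x k) _ _).trans (if_neg k)
  refine ⟨fun x k => ?_, fun x k => ?_, fun x k k' => ?_⟩
  · rw [e x (nfz h0 h1 k)]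
    split_ifs
    exacts [rho_mem (hy.cell.2 _).2, ⟨le_rfl, zero_le_one⟩]
  · have t := h1.F.T
    by_cases i : x = z.t.a
    · rw [i, show (Z.F.Θ y.s).2 z.t.a = 1 from hy.inf.ge h1.a]
      exact ⟨by linarith [t.1, t.2.2], le_rfl⟩
    · rw [show (Z.F.Θ y.s).2 x = Z.F.T from (update_of_ne i _ _).trans (if_pos k)]
      exact ⟨t.1, t.2.2.le⟩
  · rw [e x k', hy.cell.1 (.inl x) false (if_neg fun i => k (h1.sub i))]
    simp [b01, rho]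

theorem exists_cl (hy : Sol Z.ce q y) : ∃ o, ∀ b, Z1.Cl y o b := by
  choose o ho using fun b => P.C.cov _ (crit_cv (Z.F.xs_a Z.i)
    (hy.crit _ ⟨h1.a, (h0.cn.ok.fz _ h0.t.fz.1).1⟩ b))
  exact ⟨o, ho⟩

end ok

theorem exists_fl (hX : Z.LxAt δ Adm) (ha : Adm q) (hy : Sol Z.ce q y) :
    ∃ (x : S.ls → Z.J0.Obc Z.e) (m : ℕ), (∀ l ∈ Fk18.LE Z.e π, Z1.Fl y δ (x l) l) ∧
      Z1.Kp y π = Z1.kp y (Fk18.ou Z.e π) + ∑ l ∈ Fk18.LE Z.e π, Z1.kp (x l) (hp l.1 false) + m := by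
  have := Nonempty.intro (Z1.o0 y)
  choose! x e h using fun (l : S.ls) (k : l ∈ Fk18.LE Z.e π) =>
    (show ∃ x, ∃ e : ℕ, Z1.Fl y δ x l ∧ Z1.kp y (hp l.1 false) + y.k l = Z1.kp x (hp l.1 false) + e from
      let ⟨x, e, _, _, a, b, _⟩ := (hX q y l ha hy (mem_LE.1 k).1).2; ⟨x, e, a, b⟩)
  refine ⟨x, ∑ l ∈ Fk18.LE Z.e π, e l + (DR y.H π).card, fun l k => (h l k).1, ?_⟩
  rw [Z1.Kp, Finset.sum_congr rfl fun l k => (h l k).2, Finset.sum_add_distrib]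
  push_cast
  ring

variable (Lm)

/-- **RA** -/
theorem ra (hE : AllJ Lm fun J _ _ => Eps J) : RaStmt Lm := by
  rintro JA y₀ P S z R Z T h0 h1 sm ⟨δ, hX⟩ ⟨K₀, hK⟩
  have mj := Z1.mj h0 h1 JA.ly (okJ h1) (loc h1)
  refine ((hX.and hK).and (hE _ _ _ _ _ _ Z.J Z.e z.t.a (okJ h1) mj.bas 1 one_pos)).mono ?_
  rintro Adm ⟨⟨hX, hK⟩, hE⟩ b π hπ k q y ha hy f
  have pc := sm.pc b π hπ
  refine ⟨?_, fun nf t => ?_⟩
  · obtain ⟨x, m, h2, h3⟩ := exists_fl (π := π) hX ha hy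
    have h4 := Finset.sum_nonneg fun l k => (h2 l k).pos
    have h5 : -1 / 16 ≤ Z1.kp y (Fk18.ou Z.e π) := by
      by_cases i : ∃ a, (a ∈ S.M.sys.inn (Fk18.ou Z.e π) ∨ Fk18.ou Z.e π a ≠ none) ∧ ¬Nl Z.J a
      · exact (hK _ (mem h1) Z.e _ _ q y.noz ha rfl rfl pc.1 (hy.onI (sh := shS S) (okJ h1) (mem h1)
          (Dead36.dead (okJ h1) _) pc.1 f) i).1
      · linarith [(hE _ (mem h1) Z.e q y _ ha hy pc.1 f fun a j => by_contra fun j' => i ⟨a, j, j'⟩).2.1]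
    linarith [(Nat.cast_nonneg m : (0 : ℝ) ≤ m)]
  have k' : Fk18.ou Z.e π z.t.a ≠ none := ou_a h0 h1 ▸ k
  rcases t with t | t
  · obtain ⟨b', e⟩ := Option.ne_none_iff_exists'.1 k'
    obtain ⟨C⟩ := mj.cd
    obtain ⟨o, ho⟩ := C.cov _ (hy.crit _ mj.mem b')
    exact (((JA.lm _ _ _ _ _ _ Z.J Z.e z.t.a (okJ h1) mj.mem C _ (mem h1) q y b' o hy ho).2.2 _
      pc.1 e).2 f).2 t
  · exact nf z.D Z.F.m Z.e (Z.F.Θ y.s) (c0_iff h0 h1) (e_sub h0 h1) (hy.br (okJ h1) (mem h1))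
      (hy.ok (okJ h1) (mem h1)).2 _ pc k' y.x.con hy.sol.toAdm.con t

/-- **RB** -/
theorem rb (hE : AllJ Lm fun J _ _ => Eps J) (hW : AllJ Lm fun J _ a => WlStmt (J.xs a).D)
    (hA : AbwStmt Lm) : RbStmt Lm := by
  rintro JA y₀ P S z R i σ c₀ π w h0 ⟨β, sg, l2, nb, ir, ab⟩
  obtain ⟨ε, e0, hT⟩ := hA S i σ c₀ π _ ab
  refine hT.mono ?_
  rintro T hT Z h1 rfl rfl rfl sm hL hX
  have mj := Z1.mj h0 h1 JA.ly (okJ h1) (loc h1)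
  obtain ⟨δ, ⟨hX, hD⟩, d0⟩ := ((hX.and (JA.de _ _ _ _ _ _ Z.J Z.e z.t.a mj)).and
    self_mem_nhdsWithin).exists
  refine ((hX.and hD).and (hL.and (hE _ _ _ _ _ _ Z.J Z.e z.t.a (okJ h1) mj.bas ε e0))).mono ?_
  rintro Adm ⟨⟨hX, hD⟩, hL, hE⟩ b hπ k q y ha hy f hI
  have pc := sm.pc b π hπ
  have na : ∀ x, x ∈ S.M.sys.inn (Fk18.ou Z.e π) ∨ Fk18.ou Z.e π x ≠ none → x ≠ z.t.a := by
    rintro _ i rfl
    exact i.elim (pc.1.not_inn _ h1.a) fun i => i ((ou_a h0 h1).trans k)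
  obtain ⟨ea, k0, -⟩ := hE _ (mem h1) Z.e q y _ ha hy pc.1 f fun x i => mj.nil x (na x i)
  obtain ⟨x, m, h2, h3⟩ := exists_fl (π := π) hX ha hy
  obtain ⟨o, ho⟩ := exists_cl h0 h1 hy
  have nu : nu z.t Z.i π = (β, sg, l2) := nu_eq (by
    rw [NbR, if_neg (by simp [k]), TD.op, update_eq_self_iff.2 k.symm]; exact nb)
  obtain ⟨n, h4⟩ := hL q y o x δ b π hπ ha hy (ho false) d0 (by simp [k]) h2
  have h5 := Finset.sum_nonneg fun l k => (h2 l k).pos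
  have h6 : (0 : ℝ) ≤ m := Nat.cast_nonneg m
  simp only [sR, nu, if_pos k] at h4
  rw [Wr, nu]
  by_cases t : y.TA (Fk18.ou Z.e π)
  swap
  · have := hI t o ho π (by cases b <;> simp [hπ]) rfl
    have h7 : (S.nm Z.τ π : ℝ) ≤ S.nm Z.σ π := Nat.cast_le.2 (ncard_le_ncard
      (inter_subset_inter_left _ (Finset.coe_subset.2 h1.sub)))
    simp only [Z1.Xf, Dr, bR, nu, et, k, Option.elim_none, Dl] at this
    exact ir _ ⟨by linarith, n + m, by push_cast; linarith⟩ (by simp only [Dl]; linarith)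
  have bs : ∀ i ∈ EdP Z.e {Fk18.ou Z.e π}, Bs (Z.J.xs i.1).D (y.β i.1 i.2) := by
    rintro i ⟨_, rfl, e⟩
    have := na i.1 (.inr (by simp [e]))
    exact (hW _ _ _ _ _ _ Z.J Z.e i.1 _ 0 (mj.ok.xs _).1.yd (mj.nil _ this).1
      (mj.py _ i.1.2 this)).1 _ (hy.crit _ i.1.2 _)
  have go : Go δ y {Fk18.ou Z.e π} := go_of (okJ h1) (mem h1) hy pc.1 f d0 bs fun i ⟨ρ, e, e'⟩ =>
    hD _ _ ⟨okJ h1, mem h1, (loc h1).pok _ (mem h1) Z.e _ _ y.H (fun _ => id) subset_rfl⟩ q y ha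
      (solOn (P := Pc Z.e) hy subset_rfl fun _ k i => (i k).elim) i ⟨ρ, e ▸ pc.1, e'⟩
  obtain ⟨g, g1, g2⟩ := exists_ob (f := fun l : S.ls => hp l.1 false)
    (fun _ _ e => Subtype.ext (hp_inj e)) (sm.ins b π hπ)
    (fun l hl e => nomatch (ou_LE hl).symm.trans ((congrFun e l).trans hp_self)) (Z1.o0 y) x
  have pπ := (mem_Rg.1 hπ).1
  have := hT z.D _ _ _ Z.J0 Z.e δ y.s g (fun a => y.β a true) (h1.F.R _ (ne0 h1) 0).1 d0
    (c0_iff h0 h1) (pt h0 h1 hy) hy.inf (cyl_m h0 h1) pπ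
    (g1 (fun ρ x => x.s = y.s ∧ Go δ x {ρ} ∧ x.TA ρ ∧ EA ε x ρ ∧ (∀ a ∈ cylW Z.e, ∀ b, ρ a = some b →
        a ∈ S.M.sys.inn π → Bs (Z.J0.xs a).D (y.β a true) ∧ (Z.J0.xs a).D.Eqv (y.β a true) (x.β a b)) ∧
        ∀ a ∈ Z.e.1, a ∈ S.M.sys.inn π → S.M.sys.U ρ ⊆ (S.M.sys.w a).sd false → Un x ρ)
      ⟨rfl, ⟨go.br, go.O, go.adm, go.bs, go.lim, go.int⟩, t, ⟨ea.int, ea.le⟩, fun a i b e j => by
        obtain rfl := ou_inn j e
        exact ⟨bs (⟨a, i⟩, true) ⟨_, rfl, e⟩, eqv_refl (bs (⟨a, i⟩, true) ⟨_, rfl, e⟩)⟩,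
        fun a i j e => by
          have := S.M.con
          obtain ⟨p, hp⟩ := pc.1.toIsReg.nonempty
          have l := (e_sub h0 h1 i).resolve_left fun l => pπ.not_inn a l j
          exact nomatch (S.M.sys.w a).sd_inj (e hp) (hp a true (if_pos ⟨i, l, j⟩))⟩
      fun l hl => have f := h2 l hl
        ⟨f.s, f.go, f.ta, ea_mono f.ea le_rfl e0.le, fun a i b e _ => by
          obtain ⟨rfl, rfl⟩ := hp_eq.1 e
          exact ⟨bs (⟨_, i⟩, true) ⟨_, rfl, ou_LE hl⟩, f.eqv⟩, fun _ _ _ _ => f.un⟩)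
  rw [g2 fun x ρ => x.kap (z.D.W.pc Z.e ρ)] at this
  refine (this ⟨add_nonneg k0 h5, n, h4.trans (by rw [zero_add])⟩).trans ?_
  change Wt β sg l2 _ _ (Z1.kp y (Fk18.ou Z.e π) + ∑ l ∈ Fk18.LE Z.e π, Z1.kp (x l) (hp l.1 false)) ≤ _
  simp only [Wt]
  linarith

end Crest.Agent.X212.Rb56
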